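import Vale.Agent.P159.Bdl.B9

/-!
Power law bounds for the correlations of charge `q` with the exponent `q² / (2 π S)` given by the
stiffness `S` of a block, for all sites.
-/

open MeasureTheory Filter Topology
open scoped BigOperators

namespace Vale.Agent.P159.H177

/-- the character of charge `q` between two sites -/
noncomputable def qchr {V : Type*} (q : ℕ) (u v : V) : Chr (V → T) where
  c θ := cosT (q • (θ u - θ v))
  s θ := sinT (q • (θ u - θ v))
  cont_c := cont_cos.comp (((continuous_apply u).sub (continuous_apply v)).nsmul q)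
  cont_s := cont_sin.comp (((continuous_apply u).sub (continuous_apply v)).nsmul q)
  c_add x y := by
    have : q • ((x + y) u - (x + y) v) = q • (x u - x v) + q • (y u - y v) := by
      rw [← nsmul_add]
      congr 1
      simp only [Pi.add_apply]
      abel
    rw [this]
    exact Real.Angle.cos_add _ _
  s_add x y := by
    have : q • ((x + y) u - (x + y) v) = q • (x u - x v) + q • (y u - y v) := by
      rw [← nsmul_add]
      congr 1
      simp only [Pi.add_apply]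
      abel
    rw [this]
    exact Real.Angle.sin_add _ _
  norm_sq x := Real.Angle.cos_sq_add_sin_sq _

/-- finite volume correlation of charge `q` between `0` and `x` -/
noncomputable def corrQ (q R : ℕ) (b : ℝ) (x : ℤ × ℤ) : ℝ :=
  expect (boxEnergy R b) fun θ => cosT (q • (ext θ 0 - ext θ x))

/-- the finite volume correlation as an integral over all configurations -/
theorem corrQ_eq (q R : ℕ) (b : ℝ) {x : ℤ × ℤ} (hx : x ∈ box R) :
    corrQ q R b x = (∫ θ, (qchr q 0 x).c θ * Real.exp (boxE R b θ) ∂muInf) /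
      ∫ θ, Real.exp (boxE R b θ) ∂muInf := by
  unfold corrQ expect
  have h0 : (0 : ℤ × ℤ) ∈ box R := by rw [mem_box]; simp
  have c1 : Continuous (fun θ : Ginf => (qchr q 0 x).c θ * Real.exp (boxE R b θ)) :=
    (qchr q 0 x).cont_c.mul (Real.continuous_exp.comp (boxE_cont R b))
  have c2 : Continuous (fun θ : Ginf => Real.exp (boxE R b θ)) :=
    Real.continuous_exp.comp (boxE_cont R b)
  have h1 := integral_ext (box R) c1
  have h2 := integral_ext (box R) c2
  simp only [boxE_proj] at h1 h2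
  have h3 : ∀ θ : Ginf, (qchr q 0 x).c (proj (box R : Set (ℤ × ℤ)) θ) = (qchr q 0 x).c θ := by
    intro θ
    unfold qchr
    simp only
    rw [proj_of_mem (by simpa using h0), proj_of_mem (by simpa using hx)]
  simp only [h3] at h1
  rw [← h1, ← h2]
  congr 1
  · congr 1
    ext θ
    rw [boxEnergy_eq]
    rfl
  · congr 1
    ext θ
    rw [boxEnergy_eq]

/-- translation of sites -/
def sh (s : ℤ × ℤ) (v : ℤ × ℤ) : ℤ × ℤ := v - s

theorem sh_inj (s : ℤ × ℤ) : Function.Injective (sh s) := fun _ _ h => sub_left_injective h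

/-- energy of the translated box -/
noncomputable def tE (s : ℤ × ℤ) (R : ℕ) (b : ℝ) (θ : Ginf) : ℝ := boxE R b (relabel (sh s) θ)

theorem Fh_sh (s u : ℤ × ℤ) (θ : Ginf) : Fh (relabel (sh s) θ) u = Fh θ (u - s) := by
  unfold Fh
  show cosT (θ (u - s) - θ (u + (1, 0) - s)) = _
  rw [add_sub_right_comm]

theorem Fv_sh (s u : ℤ × ℤ) (θ : Ginf) : Fv (relabel (sh s) θ) u = Fv θ (u - s) := by
  unfold Fv
  show cosT (θ (u - s) - θ (u + (0, 1) - s)) = _
  rw [add_sub_right_comm]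

theorem tE_cone (s : ℤ × ℤ) (R : ℕ) {b : ℝ} (hb : 0 ≤ b) : InCone (tE s R b) := by
  unfold tE boxE
  simp only [Fh_sh, Fv_sh]
  exact (InCone.sum _ _ fun u _ => (Fh_cone (u - s)).const_mul hb).add
    (InCone.sum _ _ fun u _ => (Fv_cone (u - s)).const_mul hb)

theorem sum_sh (S S' : Finset (ℤ × ℤ)) (s : ℤ × ℤ) (F : ℤ × ℤ → ℝ)
    (h : ∀ u ∈ S, u - s ∈ S') :
    ∑ u ∈ S', F u = ∑ u ∈ S, F (u - s) + ∑ u ∈ S' \ S.image (sh s), F u := by
  classical
  have hsub : S.image (sh s) ⊆ S' := by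
    intro z hz
    obtain ⟨u, hu, rfl⟩ := Finset.mem_image.1 hz
    exact h u hu
  rw [← Finset.sum_sdiff hsub, Finset.sum_image fun _ _ _ _ h' => sh_inj s h', add_comm]
  rfl

/-- a larger box contains the translated box -/
theorem box_sub {s : ℤ × ℤ} {R R' : ℕ} (h1 : |s.1| + R ≤ R') (h2 : |s.2| + R ≤ R') {b : ℝ}
    (hb : 0 ≤ b) : ∃ D : Ginf → ℝ, InCone D ∧ ∀ θ, boxE R' b θ = tE s R b θ + D θ := by
  classical
  set BH := (box R).filter (fun u => u + (1, 0) ∈ box R) with hBH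
  set BV := (box R).filter (fun u => u + (0, 1) ∈ box R) with hBV
  set BH' := (box R').filter (fun u => u + (1, 0) ∈ box R') with hBH'
  set BV' := (box R').filter (fun u => u + (0, 1) ∈ box R') with hBV'
  have key : ∀ u : ℤ × ℤ, u ∈ box R → u - s ∈ box R' := by
    intro u hu
    rw [mem_box] at hu ⊢
    obtain ⟨a1, a2⟩ := hu
    have c1 : |(u - s).1| ≤ |u.1| + |s.1| := by
      rw [Prod.fst_sub]; exact abs_sub _ _
    have c2 : |(u - s).2| ≤ |u.2| + |s.2| := by
      rw [Prod.snd_sub]; exact abs_sub _ _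
    constructor <;> omega
  have s1 : ∀ θ, ∑ u ∈ BH', b * Fh θ u = ∑ u ∈ BH, b * Fh θ (u - s) +
      ∑ u ∈ BH' \ BH.image (sh s), b * Fh θ u := fun θ =>
    sum_sh BH BH' s (fun u => b * Fh θ u) fun u hu => by
      obtain ⟨a1, a2⟩ := Finset.mem_filter.1 hu
      refine Finset.mem_filter.2 ⟨key u a1, ?_⟩
      have := key _ a2
      rwa [add_sub_right_comm] at this
  have s2 : ∀ θ, ∑ u ∈ BV', b * Fv θ u = ∑ u ∈ BV, b * Fv θ (u - s) +
      ∑ u ∈ BV' \ BV.image (sh s), b * Fv θ u := fun θ =>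
    sum_sh BV BV' s (fun u => b * Fv θ u) fun u hu => by
      obtain ⟨a1, a2⟩ := Finset.mem_filter.1 hu
      refine Finset.mem_filter.2 ⟨key u a1, ?_⟩
      have := key _ a2
      rwa [add_sub_right_comm] at this
  refine ⟨fun θ => ∑ u ∈ BH' \ BH.image (sh s), b * Fh θ u +
    ∑ u ∈ BV' \ BV.image (sh s), b * Fv θ u, ?_, fun θ => ?_⟩
  · exact (InCone.sum _ _ fun u _ => (Fh_cone u).const_mul hb).add
      (InCone.sum _ _ fun u _ => (Fv_cone u).const_mul hb)
  · unfold tE boxE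
    simp only [Fh_sh, Fv_sh]
    rw [← hBH, ← hBV, ← hBH', ← hBV', s1, s2]
    ring

theorem tE_cont (s : ℤ × ℤ) (R : ℕ) (b : ℝ) : Continuous (tE s R b) :=
  (boxE_cont R b).comp (relabel_cont _)

/-- the correlation in the box is at most the correlation of the translated sites in the grid -/
theorem corrQ_le_grid {l : ℕ} (hl : 1 ≤ l) (q : ℕ) {N R : ℕ} {s : ℤ × ℤ}
    (h1 : |s.1| + R + 1 ≤ N) (h2 : |s.2| + R + 1 ≤ N) {b : ℝ} (hb : 0 ≤ b)
    {x : ℤ × ℤ} (hx : x ∈ box R) {B : ℝ}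
    (hB : |∫ θ, (qchr q (0 - s) (x - s)).c θ * Real.exp (gridE l N b θ) ∂muInf| ≤
      B * ∫ θ, Real.exp (gridE l N b θ) ∂muInf) : corrQ q R b x ≤ B := by
  have hN : 1 ≤ N := by
    have := abs_nonneg s.1
    omega
  obtain ⟨R', hR'⟩ : ∃ R' : ℕ, R' + 1 = N := ⟨N - 1, by omega⟩
  obtain ⟨D1, hD1, hE1⟩ := grid_sub_box (R := R') hl hR'.le hb
  obtain ⟨D2, hD2, hE2⟩ := box_sub (s := s) (R := R) (R' := R') (by omega) (by omega) hb
  have hD : InCone (fun θ => D2 θ + D1 θ) := hD2.add hD1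
  have hE : ∀ θ, gridE l N b θ = tE s R b θ + (D2 θ + D1 θ) := by
    intro θ
    rw [hE1, hE2]
    ring
  rw [corrQ_eq q R b hx]
  have e1 : ∫ θ, (qchr q (0 - s) (x - s)).c θ * Real.exp (tE s R b θ) ∂muInf =
      ∫ θ, (qchr q 0 x).c θ * Real.exp (boxE R b θ) ∂muInf :=
    integral_relabel (sh s) (sh_inj s) muInf muInf
      (f := fun θ => (qchr q 0 x).c θ * Real.exp (boxE R b θ))
      ((qchr q 0 x).cont_c.mul (Real.continuous_exp.comp (boxE_cont R b)))
  have e2 : ∫ θ, Real.exp (tE s R b θ) ∂muInf = ∫ θ, Real.exp (boxE R b θ) ∂muInf :=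
    integral_relabel (sh s) (sh_inj s) muInf muInf
      (f := fun θ => Real.exp (boxE R b θ)) (Real.continuous_exp.comp (boxE_cont R b))
  rw [← e1, ← e2]
  have h := ginibre_mono muInf pi_div2 (tE_cone s R hb) hD (qchr q (0 - s) (x - s))
  simp_rw [← hE] at h
  have p1 : 0 < ∫ θ, Real.exp (tE s R b θ) ∂muInf :=
    integral_exp_pos (cint (Real.continuous_exp.comp (tE_cont s R b)))
  have p2 : 0 < ∫ θ, Real.exp (gridE l N b θ) ∂muInf :=
    integral_exp_pos (cint (Real.continuous_exp.comp (gridE_cont l N b)))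
  rw [div_le_iff₀ p1]
  have h1 := (le_abs_self _).trans hB
  have h2 : (∫ θ, (qchr q (0 - s) (x - s)).c θ * Real.exp (tE s R b θ) ∂muInf) *
      (∫ θ, Real.exp (gridE l N b θ) ∂muInf) ≤
      (B * ∫ θ, Real.exp (tE s R b θ) ∂muInf) * (∫ θ, Real.exp (gridE l N b θ) ∂muInf) := by
    refine h.trans ?_
    calc (∫ θ, (qchr q (0 - s) (x - s)).c θ * Real.exp (gridE l N b θ) ∂muInf) *
        (∫ θ, Real.exp (tE s R b θ) ∂muInf)
        ≤ (B * ∫ θ, Real.exp (gridE l N b θ) ∂muInf) * (∫ θ, Real.exp (tE s R b θ) ∂muInf) :=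
          mul_le_mul_of_nonneg_right h1 p1.le
      _ = _ := by ring
  exact le_of_mul_le_mul_right h2 p2

theorem corrQ_le_one (q R : ℕ) {b : ℝ} {x : ℤ × ℤ} (hx : x ∈ box R) : corrQ q R b x ≤ 1 := by
  rw [corrQ_eq q R b hx]
  have p1 : 0 < ∫ θ, Real.exp (boxE R b θ) ∂muInf :=
    integral_exp_pos (cint (Real.continuous_exp.comp (boxE_cont R b)))
  rw [div_le_one p1]
  refine integral_mono (cint ((qchr q 0 x).cont_c.mul (Real.continuous_exp.comp (boxE_cont R b))))
    (cint (Real.continuous_exp.comp (boxE_cont R b))) fun θ => ?_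
  exact mul_le_of_le_one_left (Real.exp_pos _).le ((le_abs_self _).trans ((qchr q 0 x).abs_c_le θ))

/-- the finite volume correlations are monotone in the box -/
theorem corrQ_mono (q : ℕ) {R R' : ℕ} (h : R ≤ R') {b : ℝ} (hb : 0 ≤ b) {x : ℤ × ℤ}
    (hx : x ∈ box R) : corrQ q R b x ≤ corrQ q R' b x := by
  have hx' : x ∈ box R' := by
    rw [mem_box] at hx ⊢
    have : (R : ℤ) ≤ R' := by exact_mod_cast h
    constructor <;> omega
  obtain ⟨D, hD, hE⟩ := box_sub (s := 0) (R := R) (R' := R') (by simpa using h) (by simpa using h) hb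
  have e0 : ∀ θ, tE 0 R b θ = boxE R b θ := by
    intro θ
    unfold tE
    congr 1
    funext v
    show θ (v - 0) = θ v
    rw [sub_zero]
  simp only [e0] at hE
  rw [corrQ_eq q R b hx, corrQ_eq q R' b hx']
  have h := ginibre_mono muInf pi_div2 (boxE_cone R hb) hD (qchr q 0 x)
  simp_rw [← hE] at h
  have p1 : 0 < ∫ θ, Real.exp (boxE R b θ) ∂muInf :=
    integral_exp_pos (cint (Real.continuous_exp.comp (boxE_cont R b)))
  have p2 : 0 < ∫ θ, Real.exp (boxE R' b θ) ∂muInf :=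
    integral_exp_pos (cint (Real.continuous_exp.comp (boxE_cont R' b)))
  rw [div_le_div_iff₀ p1 p2]
  exact h

theorem chr_int_nonneg (A : Chr Ginf) : 0 ≤ ∫ θ, A.c θ ∂muInf := by
  have hs : ∫ θ, A.s θ ∂muInf = 0 := by
    have h1 := integral_neg_eq_self (fun θ => A.s θ) muInf
    simp only [A.s_neg] at h1
    rw [integral_neg] at h1
    linarith only [h1]
  set I := ∫ θ, A.c θ ∂muInf with hI
  have h2 : ∀ y, I = A.c y * I := by
    intro y
    have h3 := integral_add_right_eq_self (μ := muInf) (fun θ => A.c θ) y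
    simp only [A.c_add] at h3
    have c1 : Integrable (fun θ => A.c θ * A.c y) muInf := cint (A.cont_c.mul continuous_const)
    have c2 : Integrable (fun θ => A.s θ * A.s y) muInf := cint (A.cont_s.mul continuous_const)
    rw [integral_sub c1 c2, integral_mul_const, integral_mul_const, hs, ← hI] at h3
    linarith only [h3]
  have h4 : I = I * I := by
    have h5 : ∫ y, A.c y * I ∂muInf = I := by
      have : (fun y => A.c y * I) = fun _ => I := funext fun y => (h2 y).symm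
      rw [this]
      simp
    rw [integral_mul_const, ← hI] at h5
    exact h5.symm
  rw [h4]
  exact mul_self_nonneg I

theorem corrQ_nonneg (q R : ℕ) {b : ℝ} (hb : 0 ≤ b) {x : ℤ × ℤ} (hx : x ∈ box R) :
    0 ≤ corrQ q R b x := by
  rw [corrQ_eq q R b hx]
  refine div_nonneg ?_ (integral_nonneg fun θ => (Real.exp_pos _).le)
  have h := ginibre_mono muInf pi_div2 InCone.zero (boxE_cone R hb) (qchr q 0 x)
  simp only [zero_add, Real.exp_zero, mul_one, integral_const, probReal_univ, smul_eq_mul] at h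
  refine le_trans (mul_nonneg (chr_int_nonneg _) ?_) h
  exact integral_nonneg fun θ => (Real.exp_pos _).le

/-- block bound for a coarse profile and a character of charge `q` -/
theorem gridQ_bound {l : ℕ} (hl : 1 ≤ l) (q N : ℕ) {b : ℝ} (hb : 0 ≤ b) (a : ℤ × ℤ → ℝ)
    {u v : ℤ × ℤ} (hu : ∀ k, u ∉ innerAt l k) (hv : ∀ k, v ∉ innerAt l k) :
    |∫ θ, (qchr q u v).c θ * Real.exp (gridE l N b θ) ∂muInf| ≤
      (Real.exp (-(q * (interp l a u - interp l a v))) *
      ∏ k ∈ ivl N ×ˢ ivl N, rho muInf (fun _ : BI l => b / 2) (chi0 l)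
        (fun e => (-(cp a k / l)) * hh e + (-(cq a k / l)) * vv e + (-(ck a k / l)) * ww e)) *
      ∫ θ, Real.exp (gridE l N b θ) ∂muInf := by
  have hg : ∀ (u v : ℤ × ℤ) (s : ℝ), (grad u v).c (fun w => ((s * interp l a w : ℝ) : T)) =
      Real.cos (s * (interp l a u - interp l a v)) ∧
      (grad u v).s (fun w => ((s * interp l a w : ℝ) : T)) =
      Real.sin (s * (interp l a u - interp l a v)) := by
    intro u v s
    unfold grad
    simp only
    rw [← AddCircle.coe_sub, cosT_coe, sinT_coe, mul_sub]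
    exact ⟨rfl, rfl⟩
  have hgq : ∀ s : ℝ, (qchr q u v).c (fun w => ((s * interp l a w : ℝ) : T)) =
      Real.cos (s * (q * (interp l a u - interp l a v))) ∧
      (qchr q u v).s (fun w => ((s * interp l a w : ℝ) : T)) =
      Real.sin (s * (q * (interp l a u - interp l a v))) := by
    intro s
    unfold qchr
    simp only
    rw [← AddCircle.coe_sub, ← AddCircle.coe_nsmul, cosT_coe, sinT_coe, nsmul_eq_mul]
    have e : (q : ℝ) * (s * interp l a u - s * interp l a v) =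
        s * (q * (interp l a u - interp l a v)) := by ring
    rw [e]
    exact ⟨rfl, rfl⟩
  have h := block_bound muInf (K := ↥(ivl N ×ˢ ivl N)) (κ := BI l) pi_div2 (fun _ => b / 2)
    (fun _ => by positivity) (fun k e => chiAt l k e) (qchr q u v)
    (fun k => proj (innerAt l k)) (fun k => proj_cont _)
    (by
      intro j k hjk e θ
      have hne : (j : ℤ × ℤ) ≠ (k : ℤ × ℤ) := fun h => hjk (Subtype.ext h)
      obtain ⟨a1, a2, a3, a4⟩ := bu_range e
      obtain ⟨b1, b2, b3, b4⟩ := bv_range e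
      unfold chiAt grad
      simp only
      rw [proj_of_notMem (notMem_innerAt hne a1 a2 a3 a4),
        proj_of_notMem (notMem_innerAt hne b1 b2 b3 b4), sub_zero, cosT_zero, sinT_zero]
      exact ⟨rfl, rfl⟩)
    (by
      intro k θ
      unfold qchr
      simp only
      rw [proj_of_notMem (hu _), proj_of_notMem (hv _), sub_zero, smul_zero,
        cosT_zero, sinT_zero]
      exact ⟨rfl, rfl⟩)
    (fun k e => interp l a (cor l k + bu e) - interp l a (cor l k + bv e))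
    (q * (interp l a u - interp l a v))
    (fun s => fun w => ((s * interp l a w : ℝ) : T))
    (fun k e s => hg _ _ s)
    (fun s => hgq s)
  have e1 : ∀ θ : Ginf, ∑ k : ↥(ivl N ×ˢ ivl N), ∑ e : BI l, b / 2 * (chiAt l k e).c θ =
      gridE l N b θ := by
    intro θ
    unfold gridE
    exact Finset.sum_coe_sort (ivl N ×ˢ ivl N) (fun k => ∑ e : BI l, b / 2 * (chiAt l k e).c θ)
  simp_rw [e1] at h
  simp_rw [rho_translate, interp_bond hl] at h
  rw [Finset.prod_coe_sort (ivl N ×ˢ ivl N) (fun k => rho muInf (fun _ : BI l => b / 2) (chi0 l)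
        (fun e => (-(cp a k / l)) * hh e + (-(cq a k / l)) * vv e + (-(ck a k / l)) * ww e))] at h
  exact h

theorem no_mult (l : ℕ) (m : ℤ) : ¬ (1 ≤ (l : ℤ) * m ∧ (l : ℤ) * m ≤ l - 1) := by
  rintro ⟨h1, h2⟩
  rcases le_or_gt m 0 with h | h
  · have : (l : ℤ) * m ≤ 0 := mul_nonpos_of_nonneg_of_nonpos (by omega) h
    omega
  · have : (l : ℤ) * 1 ≤ l * m := mul_le_mul_of_nonneg_left (by omega) (by omega)
    omega

/-- convex combinations -/
theorem conv_ge {x y m σ : ℝ} (h0 : 0 ≤ σ) (h1 : σ ≤ 1) (hx : m ≤ x) (hy : m ≤ y) :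
    m ≤ x * (1 - σ) + y * σ := by
  nlinarith only [mul_le_mul_of_nonneg_right hx (sub_nonneg.2 h1),
    mul_le_mul_of_nonneg_right hy h0]

theorem conv_le {x y m σ : ℝ} (h0 : 0 ≤ σ) (h1 : σ ≤ 1) (hx : x ≤ m) (hy : y ≤ m) :
    x * (1 - σ) + y * σ ≤ m := by
  nlinarith only [mul_le_mul_of_nonneg_right hx (sub_nonneg.2 h1),
    mul_le_mul_of_nonneg_right hy h0]

/-- the values of the profile near its centre -/
theorem psi_near {M : ℝ} (hM : 9 ≤ M) {n : ℕ} (hn : 1 ≤ n) {w : ℤ × ℤ}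
    (hw : (w.1 : ℝ) ^ 2 + (w.2 : ℝ) ^ 2 ≤ 1) :
    Real.log n - Real.log (M ^ 2 + 1) / 2 ≤ psi M n w := by
  unfold psi phi qq
  refine le_trans ?_ (le_max_right _ _)
  have hM0 : 0 < M := by linarith only [hM]
  have hn0 : (0 : ℝ) < n := by exact_mod_cast hn
  have h1 : Real.log ((n : ℝ) ^ 2) ≤ Real.log (M ^ 2 + (n : ℝ) ^ 2) := by
    apply Real.log_le_log (by positivity)
    nlinarith only []
  rw [Real.log_pow] at h1
  have h2 : Real.log (M ^ 2 + (w.1 : ℝ) ^ 2 + (w.2 : ℝ) ^ 2) ≤ Real.log (M ^ 2 + 1) := by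
    apply Real.log_le_log (by positivity)
    linarith only [hw]
  push_cast at h1
  linarith only [h1, h2]

theorem psi_far {M : ℝ} (hM : 9 ≤ M) {n : ℕ} {w : ℤ × ℤ} (hw : (n : ℤ) ≤ max |w.1| |w.2|) :
    psi M n w = 0 := by
  by_contra hne
  obtain ⟨h1, h2⟩ := psi_support hM hne
  have := max_lt h1 h2
  omega

/-- the product of the block factors -/
theorem prod_le {l : ℕ} {b U C δ t M : ℝ} (hU0 : 0 ≤ U) (hC : 0 < C) (hM : 9 ≤ M)
    (hMδ : t * (16 / M) ≤ δ) (ht : 0 < t)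
    (hrho : ∀ (a : ℤ × ℤ → ℝ) (k : ℤ × ℤ), cY a k ≤ δ →
      rho muInf (fun _ : BI l => b / 2) (chi0 l)
        (fun e => (-(cp a k / l)) * hh e + (-(cq a k / l)) * vv e + (-(ck a k / l)) * ww e) ≤
        Real.exp (U / 2 * (cp a k ^ 2 + cq a k ^ 2) + C * (|ck a k| * cY a k + cY a k ^ 4)))
    {n : ℕ} (hn1 : 1 ≤ n) {x : ℤ × ℤ} (hx2 : 2 * (n : ℤ) < max |x.1| |x.2|)
    (S : Finset (ℤ × ℤ)) {a : ℤ × ℤ → ℝ} (ha : a = fun z => t * (psi M n z - psi M n (z - x))) :
    ∏ k ∈ S, rho muInf (fun _ : BI l => b / 2) (chi0 l)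
        (fun e => (-(cp a k / l)) * hh e + (-(cq a k / l)) * vv e + (-(ck a k / l)) * ww e) ≤
        Real.exp (U * t ^ 2 * (2 * Real.pi * Real.log n + 4600) +
          C * (t ^ 2 + t ^ 4) * 420000) := by
  subst ha
  set a : ℤ × ℤ → ℝ := fun z => t * (psi M n z - psi M n (z - x)) with ha
  have hYsmall : ∀ k, cY a k ≤ δ := by
    intro k
    refine (two_centre hM ht hx2 k).2.1.trans ?_
    have h1 : ∀ z, cY (psi M n) z ≤ 16 / M := by
      intro z
      refine (cY_le hM n z).trans ?_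
      have h2 : M ≤ Real.sqrt (qq M z) := by
        apply Real.le_sqrt_of_sq_le
        unfold qq
        nlinarith only []
      have hM0 : 0 < M := by linarith only [hM]
      gcongr
    have h2 : t * max (cY (psi M n) k) (cY (psi M n) (k - x)) ≤ t * (16 / M) :=
      mul_le_mul_of_nonneg_left (max_le (h1 _) (h1 _)) ht.le
    exact h2.trans hMδ
  have h1 : ∏ k ∈ S, rho muInf (fun _ : BI l => b / 2) (chi0 l)
    (fun e => (-(cp a k / l)) * hh e + (-(cq a k / l)) * vv e + (-(ck a k / l)) * ww e) ≤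
    ∏ k ∈ S, Real.exp (U / 2 * (cp a k ^ 2 + cq a k ^ 2) +
      C * (|ck a k| * cY a k + cY a k ^ 4)) :=
    Finset.prod_le_prod (fun k _ => div_nonneg (norm_nonneg _) (norm_nonneg _))
      (fun k _ => hrho a k (hYsmall k))
  refine h1.trans ?_
  rw [← Real.exp_sum]
  apply Real.exp_le_exp.2
  have h2 : ∀ k ∈ S, U / 2 * (cp a k ^ 2 + cq a k ^ 2) +
      C * (|ck a k| * cY a k + cY a k ^ 4) ≤
      U / 2 * t ^ 2 * ((cp (psi M n) (k - 0) ^ 2 + cq (psi M n) (k - 0) ^ 2) +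
        (cp (psi M n) (k - x) ^ 2 + cq (psi M n) (k - x) ^ 2)) +
      C * (t ^ 2 + t ^ 4) * ((|ck (psi M n) (k - 0)| * cY (psi M n) (k - 0) +
        cY (psi M n) (k - 0) ^ 4) +
        (|ck (psi M n) (k - x)| * cY (psi M n) (k - x) + cY (psi M n) (k - x) ^ 4)) := by
    intro k _
    obtain ⟨g1, _, g3⟩ := two_centre hM ht hx2 k
    rw [sub_zero]
    have g4 := mul_le_mul_of_nonneg_left g3 hC.le
    rw [g1]
    linarith only [g4]
  refine (Finset.sum_le_sum h2).trans ?_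
  rw [Finset.sum_add_distrib, ← Finset.mul_sum, ← Finset.mul_sum]
  have k1 : ∑ k ∈ S, ((cp (psi M n) (k - 0) ^ 2 + cq (psi M n) (k - 0) ^ 2) +
        (cp (psi M n) (k - x) ^ 2 + cq (psi M n) (k - x) ^ 2)) =
      ∑ k ∈ S, (cp (psi M n) (k - 0) ^ 2 + cq (psi M n) (k - 0) ^ 2) +
      ∑ k ∈ S, (cp (psi M n) (k - x) ^ 2 + cq (psi M n) (k - x) ^ 2) :=
    Finset.sum_add_distrib
  have k2 : ∑ k ∈ S, ((|ck (psi M n) (k - 0)| * cY (psi M n) (k - 0) +
        cY (psi M n) (k - 0) ^ 4) +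
        (|ck (psi M n) (k - x)| * cY (psi M n) (k - x) + cY (psi M n) (k - x) ^ 4)) =
      ∑ k ∈ S, (|ck (psi M n) (k - 0)| * cY (psi M n) (k - 0) +
        cY (psi M n) (k - 0) ^ 4) + ∑ k ∈ S, (|ck (psi M n) (k - x)| * cY (psi M n) (k - x) +
        cY (psi M n) (k - x) ^ 4) := Finset.sum_add_distrib
  rw [k1, k2]
  have p0 := sum_P_le hM hn1 S 0
  have p1 := sum_P_le hM hn1 S x
  have q0 := sum_E_le hM hn1 S 0
  have q1 := sum_E_le hM hn1 S x
  have r1 : U / 2 * t ^ 2 * (∑ k ∈ S, (cp (psi M n) (k - 0) ^ 2 + cq (psi M n) (k - 0) ^ 2) +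
      ∑ k ∈ S, (cp (psi M n) (k - x) ^ 2 + cq (psi M n) (k - x) ^ 2)) ≤
      U / 2 * t ^ 2 * ((2 * Real.pi * Real.log n + 4600) +
        (2 * Real.pi * Real.log n + 4600)) :=
    mul_le_mul_of_nonneg_left (add_le_add p0 p1) (by positivity)
  have r2 : C * (t ^ 2 + t ^ 4) * (∑ k ∈ S, (|ck (psi M n) (k - 0)| * cY (psi M n) (k - 0) +
        cY (psi M n) (k - 0) ^ 4) + ∑ k ∈ S, (|ck (psi M n) (k - x)| * cY (psi M n) (k - x) +
        cY (psi M n) (k - x) ^ 4)) ≤ C * (t ^ 2 + t ^ 4) * (210000 + 210000) :=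
    mul_le_mul_of_nonneg_left (add_le_add q0 q1) (by positivity)
  linarith only [r1, r2]

/-- power law bound for the correlations of charge `q`, all sites -/
theorem charge_bound {l : ℕ} (hl : 1 ≤ l) {b : ℝ} (hb : 0 ≤ b) {U : ℝ} (hU0 : 0 < U)
    (hU : stiff l b ≤ U) {q : ℕ} (hq : 1 ≤ q) :
    ∃ K : ℝ, 0 < K ∧ ∀ (R : ℕ) (x : ℤ × ℤ), x ≠ 0 → x ∈ box R →
      corrQ q R b x ≤ K * ((max |x.1| |x.2| : ℤ) : ℝ) ^ (-((q : ℝ) ^ 2 / (2 * Real.pi * U))) := by
  have hpi := Real.pi_pos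
  have hq0 : (0 : ℝ) < q := by exact_mod_cast hq
  have hl0 : (0 : ℝ) < l := by exact_mod_cast hl
  have hlz : (0 : ℤ) < l := by exact_mod_cast hl
  obtain ⟨C, δ, hC, hδ, hrho⟩ := rho_block hl hb hU
  set t : ℝ := q / (2 * Real.pi * U) with ht'
  have ht : 0 < t := by positivity
  set e : ℝ := (q : ℝ) ^ 2 / (2 * Real.pi * U) with he
  have he0 : 0 < e := by positivity
  have e1 : 2 * q * t = 2 * e := by
    rw [ht', he]; ring
  have e2 : 2 * Real.pi * U * t ^ 2 = e := by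
    rw [ht', he]; field_simp
  set M := 9 + 16 * t / δ with hMdef
  have hM : 9 ≤ M := by
    have : 0 ≤ 16 * t / δ := by positivity
    linarith
  have hM0 : 0 < M := by linarith only [hM]
  have hMδ : t * (16 / M) ≤ δ := by
    rw [mul_div_assoc', div_le_iff₀ hM0, hMdef]
    have h3 : δ * (9 + 16 * t / δ) = 9 * δ + 16 * t := by field_simp
    rw [h3]
    linarith only [hδ]
  set m0 := Real.log (M ^ 2 + 1) / 2 with hm0
  set c0 := 2 * q * t * m0 + U * t ^ 2 * 4600 + C * (t ^ 2 + t ^ 4) * 420000 with hc0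
  have h8 : (0 : ℝ) < (8 * l) ^ e := by positivity
  refine ⟨(Real.exp c0 + 1) * (8 * l) ^ e, by positivity, ?_⟩
  intro R x hx0 hxR
  -- sizes
  set κ : ℤ × ℤ := (x.1 / l, x.2 / l) with hκ
  have hi0 := Int.emod_nonneg x.1 hlz.ne'
  have hi1 := Int.emod_lt_of_pos x.1 hlz
  have hj0 := Int.emod_nonneg x.2 hlz.ne'
  have hj1 := Int.emod_lt_of_pos x.2 hlz
  have hx1 := Int.mul_ediv_add_emod x.1 l
  have hx2 := Int.mul_ediv_add_emod x.2 l
  obtain ⟨r, hr⟩ : ∃ r : ℕ, (r : ℤ) = max |x.1| |x.2| :=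
    ⟨(max |x.1| |x.2|).toNat, Int.toNat_of_nonneg (le_max_of_le_left (abs_nonneg _))⟩
  obtain ⟨X, hX⟩ : ∃ X : ℕ, (X : ℤ) = max |κ.1| |κ.2| :=
    ⟨(max |κ.1| |κ.2|).toNat, Int.toNat_of_nonneg (le_max_of_le_left (abs_nonneg _))⟩
  have hr1 : 1 ≤ r := by
    by_contra h
    have h0 : r = 0 := by omega
    rw [h0] at hr
    apply hx0
    have h1 : |x.1| ≤ 0 := by
      have := le_max_left |x.1| |x.2|
      omega
    have h2 : |x.2| ≤ 0 := by
      have := le_max_right |x.1| |x.2|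
      omega
    ext
    · exact abs_eq_zero.1 (le_antisymm h1 (abs_nonneg _))
    · exact abs_eq_zero.1 (le_antisymm h2 (abs_nonneg _))
  have hrX : (r : ℤ) ≤ l * (X + 1) := by
    have g : ∀ y k i : ℤ, l * k + i = y → 0 ≤ i → i < l → |k| ≤ X → |y| ≤ l * (X + 1) := by
      intro y k i h1 h2 h3 h4
      have h5 : |y| ≤ |(l : ℤ) * k| + |i| := by
        rw [← h1]; exact abs_add_le _ _
      rw [abs_mul, abs_of_pos hlz, abs_of_nonneg h2] at h5
      have h6 : (l : ℤ) * |k| ≤ l * X := mul_le_mul_of_nonneg_left h4 hlz.le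
      linarith only [h3, h5, h6]
    rw [hr]
    refine max_le (g _ _ _ hx1 hi0 hi1 ?_) (g _ _ _ hx2 hj0 hj1 ?_)
    · rw [hX]; exact le_max_left _ _
    · rw [hX]; exact le_max_right _ _
  rw [← hr]
  have hrr : (1 : ℝ) ≤ ((r : ℤ) : ℝ) := by exact_mod_cast hr1
  have hrpos : (0 : ℝ) < ((r : ℤ) : ℝ) := by linarith
  have hrXr : ((r : ℤ) : ℝ) ≤ l * (X + 1) := by exact_mod_cast hrX
  have hcmp : ∀ y : ℝ, 0 < y → ((r : ℤ) : ℝ) ≤ 8 * l * y →
      y ^ (-e) ≤ (8 * l) ^ e * ((r : ℤ) : ℝ) ^ (-e) := by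
    intro y hy h
    have h8l : (0 : ℝ) ≤ 8 * l := by positivity
    rw [Real.rpow_neg hy.le, Real.rpow_neg hrpos.le, ← div_eq_mul_inv,
      le_div_iff₀ (Real.rpow_pos_of_pos hrpos e), ← div_eq_inv_mul,
      div_le_iff₀ (Real.rpow_pos_of_pos hy e), ← Real.mul_rpow h8l hy.le]
    exact Real.rpow_le_rpow hrpos.le h he0.le
  by_cases hsmall : X ≤ 4
  · -- small distances
    have h1 := hcmp 1 one_pos (by
      have hX4 : (X : ℝ) ≤ 4 := by exact_mod_cast hsmall
      have : (l : ℝ) * (X + 1) ≤ l * (4 + 1) := by gcongr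
      linarith only [hrXr, this, hl0])
    rw [Real.one_rpow] at h1
    have h2 := corrQ_le_one q R (b := b) hxR
    have h3 : 0 ≤ Real.exp c0 * ((8 * l) ^ e * ((r : ℤ) : ℝ) ^ (-e)) := by positivity
    have h4 : (Real.exp c0 + 1) * (8 * l) ^ e * ((r : ℤ) : ℝ) ^ (-e) =
        Real.exp c0 * ((8 * l) ^ e * ((r : ℤ) : ℝ) ^ (-e)) +
          (8 * l) ^ e * ((r : ℤ) : ℝ) ^ (-e) := by ring
    rw [h4]
    linarith only [h1, h2, h3]
  · push Not at hsmall
    obtain ⟨n, hn⟩ : ∃ n : ℕ, n = (X - 1) / 2 := ⟨_, rfl⟩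
    have hn1 : 1 ≤ n := by omega
    have hn2 : 2 * n < X := by omega
    have hn3 : X + 1 ≤ 4 * n := by omega
    have hnr : (1 : ℝ) ≤ (n : ℝ) := by exact_mod_cast hn1
    have hκ2 : 2 * (n : ℤ) < max |κ.1| |κ.2| := by rw [← hX]; exact_mod_cast hn2
    set a : ℤ × ℤ → ℝ := fun z => t * (psi M n z - psi M n (z - κ)) with ha
    set s : ℤ × ℤ := (0, x.2 % l) with hs
    obtain ⟨i, hi⟩ : ∃ i : ℕ, (i : ℤ) = x.1 % l := ⟨(x.1 % l).toNat, Int.toNat_of_nonneg hi0⟩
    obtain ⟨j, hj⟩ : ∃ j : ℕ, (j : ℤ) = l - x.2 % l :=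
      ⟨(l - x.2 % l).toNat, Int.toNat_of_nonneg (by omega)⟩
    -- the two sites are not interior to a block
    have hu : ∀ k, (0 : ℤ × ℤ) - s ∉ innerAt l k := by
      intro k hk
      rw [mem_innerAt] at hk
      obtain ⟨a1, a2, _, _⟩ := hk
      simp only [hs, Prod.fst_sub, Prod.fst_zero, sub_zero] at a1 a2
      refine no_mult l (-k.1) ⟨?_, ?_⟩
      · rw [mul_neg]; linarith only [a1]
      · rw [mul_neg]; linarith only [a2]
    have hv : ∀ k, x - s ∉ innerAt l k := by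
      intro k hk
      rw [mem_innerAt] at hk
      obtain ⟨_, _, a1, a2⟩ := hk
      simp only [hs, Prod.snd_sub] at a1 a2
      refine no_mult l (κ.2 - k.2) ⟨?_, ?_⟩
      · rw [mul_sub]; linarith only [a1, hx2]
      · rw [mul_sub]; linarith only [a2, hx2]
    -- the values of the profile
    have hnear : ∀ w : ℤ × ℤ, (w.1 : ℝ) ^ 2 + (w.2 : ℝ) ^ 2 ≤ 1 →
        Real.log n - m0 ≤ psi M n w := fun w hw => psi_near hM hn1 hw
    have hL : Real.log n - m0 ≤ psi M n (0, -1) := hnear _ (by norm_num)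
    have hfar1 : ∀ w : ℤ × ℤ, |w.1| ≤ 1 → |w.2| ≤ 1 → psi M n (κ + w) = 0 ∧
        psi M n (w - κ) = 0 := by
      intro w h1 h2
      constructor
      · apply psi_far hM
        simp only [Prod.fst_add, Prod.snd_add]
        have g1 := abs_sub_abs_le_abs_sub κ.1 (-w.1)
        have g2 := abs_sub_abs_le_abs_sub κ.2 (-w.2)
        rw [sub_neg_eq_add, abs_neg] at g1 g2
        omega
      · apply psi_far hM
        simp only [Prod.fst_sub, Prod.snd_sub]
        have g1 := abs_sub_abs_le_abs_sub κ.1 w.1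
        have g2 := abs_sub_abs_le_abs_sub κ.2 w.2
        rw [abs_sub_comm] at g1 g2
        omega
    have iu : t * (Real.log n - m0) ≤ interp l a ((0 : ℤ × ℤ) - s) := by
      have q1 : (0 : ℤ × ℤ) - s = cor l (0, -1) + (((0 : ℕ) : ℤ), (j : ℤ)) := by
        rw [hj]
        unfold cor
        ext
        · simp [hs]
        · simp only [hs, Prod.snd_sub, Prod.snd_zero, Prod.snd_add]
          ring
      rw [q1, interp_le hl a (0, -1) (Nat.zero_le l) (by omega)]
      unfold bil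
      have q2 : (((0, -1) : ℤ × ℤ) + (0, 1)) = 0 := by ext <;> simp
      rw [q2]
      have v1 : t * (Real.log n - m0) ≤ a (0, -1) := by
        simp only [ha]
        rw [(hfar1 (0, -1) (by norm_num) (by norm_num)).2, sub_zero]
        exact mul_le_mul_of_nonneg_left hL ht.le
      have v2 : t * (Real.log n - m0) ≤ a 0 := by
        simp only [ha]
        rw [(hfar1 0 (by norm_num) (by norm_num)).2, sub_zero]
        exact mul_le_mul_of_nonneg_left (hnear 0 (by norm_num)) ht.le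
      have := conv_ge (σ := (j : ℝ) / l) (by positivity) (by
        rw [div_le_one hl0]
        have : (j : ℤ) ≤ l := by omega
        exact_mod_cast this) v1 v2
      refine this.trans (le_of_eq ?_)
      push_cast
      ring
    have iv : interp l a (x - s) ≤ -(t * (Real.log n - m0)) := by
      have q1 : x - s = cor l κ + ((i : ℤ), ((0 : ℕ) : ℤ)) := by
        rw [hi]
        unfold cor
        ext
        · simp only [hs, Prod.fst_sub, Prod.fst_add, sub_zero]
          linarith only [hx1]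
        · simp only [hs, Prod.snd_sub, Prod.snd_add, Nat.cast_zero, add_zero]
          linarith only [hx2]
      rw [q1, interp_le hl a κ (by omega) (Nat.zero_le l)]
      unfold bil
      have v1 : a κ ≤ -(t * (Real.log n - m0)) := by
        simp only [ha]
        have f1 := (hfar1 0 (by norm_num) (by norm_num)).1
        rw [add_zero] at f1
        rw [f1, sub_self, zero_sub, mul_neg]
        exact neg_le_neg (mul_le_mul_of_nonneg_left (hnear 0 (by norm_num)) ht.le)
      have v2 : a (κ + (1, 0)) ≤ -(t * (Real.log n - m0)) := by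
        simp only [ha]
        rw [(hfar1 (1, 0) (by norm_num) (by norm_num)).1, add_sub_cancel_left, zero_sub, mul_neg]
        exact neg_le_neg (mul_le_mul_of_nonneg_left (hnear (1, 0) (by norm_num)) ht.le)
      have := conv_le (σ := (i : ℝ) / l) (by positivity) (by
        rw [div_le_one hl0]
        have : (i : ℤ) ≤ l := by omega
        exact_mod_cast this) v1 v2
      refine le_trans (le_of_eq ?_) this
      push_cast
      ring
    have hN1 : |s.1| + (R : ℤ) + 1 ≤ ((R + l : ℕ) : ℤ) := by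
      simp only [hs, abs_zero]
      push_cast
      omega
    have hN2 : |s.2| + (R : ℤ) + 1 ≤ ((R + l : ℕ) : ℤ) := by
      simp only [hs]
      rw [abs_of_nonneg hj0]
      push_cast
      omega
    have hgrid := gridQ_bound hl q (R + l) hb a hu hv
    refine (corrQ_le_grid hl q hN1 hN2 hb hxR hgrid).trans ?_
    have hprod := prod_le hU0.le hC hM hMδ ht hrho hn1 hκ2 (ivl (R + l) ×ˢ ivl (R + l)) ha
    have htot : Real.exp (-(q * (interp l a ((0 : ℤ × ℤ) - s) - interp l a (x - s)))) *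
        ∏ k ∈ ivl (R + l) ×ˢ ivl (R + l),
        rho muInf (fun _ : BI l => b / 2) (chi0 l)
        (fun e => (-(cp a k / l)) * hh e + (-(cq a k / l)) * vv e + (-(ck a k / l)) * ww e) ≤
        Real.exp c0 * (n : ℝ) ^ (-e) := by
      calc _ ≤ Real.exp (-(q * (2 * (t * (Real.log n - m0))))) *
            Real.exp (U * t ^ 2 * (2 * Real.pi * Real.log n + 4600) +
          C * (t ^ 2 + t ^ 4) * 420000) := by
            apply mul_le_mul _ hprod _ (Real.exp_pos _).le
            · apply Real.exp_le_exp.2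
              have h1 : 2 * (t * (Real.log n - m0)) ≤
                  interp l a ((0 : ℤ × ℤ) - s) - interp l a (x - s) := by
                linarith only [iu, iv]
              exact neg_le_neg (mul_le_mul_of_nonneg_left h1 hq0.le)
            · exact Finset.prod_nonneg fun k _ => div_nonneg (norm_nonneg _) (norm_nonneg _)
        _ = Real.exp c0 * (n : ℝ) ^ (-e) := by
            rw [Real.rpow_def_of_pos (by linarith only [hnr]), ← Real.exp_add, ← Real.exp_add]
            congr 1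
            rw [hc0]
            linear_combination (-Real.log n) * e1 + Real.log n * e2
    refine htot.trans ?_
    have hns := hcmp n (by linarith only [hnr]) (by
      have h1 : ((X : ℝ) + 1) ≤ 4 * n := by exact_mod_cast hn3
      have h2 : (l : ℝ) * (X + 1) ≤ l * (4 * n) := mul_le_mul_of_nonneg_left h1 hl0.le
      have h3 : 0 ≤ (l : ℝ) * n := by positivity
      linarith only [hrXr, h2, h3])
    have h5 : Real.exp c0 * (n : ℝ) ^ (-e) ≤
        Real.exp c0 * ((8 * l) ^ e * ((r : ℤ) : ℝ) ^ (-e)) :=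
      mul_le_mul_of_nonneg_left hns (Real.exp_pos _).le
    have h6 : 0 ≤ (8 * l) ^ e * ((r : ℤ) : ℝ) ^ (-e) := by positivity
    have h4 : (Real.exp c0 + 1) * (8 * l) ^ e * ((r : ℤ) : ℝ) ^ (-e) =
        Real.exp c0 * ((8 * l) ^ e * ((r : ℤ) : ℝ) ^ (-e)) +
          (8 * l) ^ e * ((r : ℤ) : ℝ) ^ (-e) := by ring
    rw [h4]
    linarith only [h5, h6]

/-- the infinite volume limit of the correlation of charge `q` -/
theorem corrQ_tendsto (q : ℕ) {b : ℝ} (hb : 0 ≤ b) (x : ℤ × ℤ) :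
    ∃ c : ℝ, Tendsto (fun R : ℕ => corrQ q R b x) atTop (𝓝 c) ∧ 0 ≤ c ∧
      ∀ B : ℝ, (∀ R, x ∈ box R → corrQ q R b x ≤ B) → c ≤ B := by
  obtain ⟨R0, hR0⟩ : ∃ R0 : ℕ, x ∈ box R0 := by
    refine ⟨max x.1.natAbs x.2.natAbs, ?_⟩
    rw [mem_box, Int.abs_eq_natAbs, Int.abs_eq_natAbs]
    have h1 := le_max_left x.1.natAbs x.2.natAbs
    have h2 := le_max_right x.1.natAbs x.2.natAbs
    exact ⟨Int.ofNat_le.2 h1, Int.ofNat_le.2 h2⟩
  have hmem : ∀ n : ℕ, x ∈ box (n + R0) := by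
    intro n
    rw [mem_box] at hR0 ⊢
    push_cast
    constructor <;> omega
  have hmono : Monotone fun n : ℕ => corrQ q (n + R0) b x := fun m n h =>
    corrQ_mono q (Nat.add_le_add_right h R0) hb (hmem m)
  have hbdd : BddAbove (Set.range fun n : ℕ => corrQ q (n + R0) b x) :=
    ⟨1, by rintro _ ⟨n, rfl⟩; exact corrQ_le_one q _ (hmem n)⟩
  have h1 := tendsto_atTop_ciSup hmono hbdd
  refine ⟨_, (tendsto_add_atTop_iff_nat R0).1 h1, ?_, fun B hB => ?_⟩
  · exact (corrQ_nonneg q _ hb (hmem 0)).trans (le_ciSup hbdd 0)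
  · exact ciSup_le fun n => hB _ (hmem n)

/-- correlations of charge `q` decay at least with the exponent `q² / (2 π S)` -/
theorem charge_decay {b : ℝ} (hb : 0 < b) {l : ℕ} (hl : 1 ≤ l) (q : ℕ) :
    ∃ K : ℝ, ∀ x : ℤ × ℤ, x ≠ 0 → ∃ c : ℝ,
      Tendsto (fun R : ℕ => corrQ q R b x) atTop (𝓝 c) ∧ 0 ≤ c ∧
      c ≤ K * ((max |x.1| |x.2| : ℤ) : ℝ) ^ (-((q : ℝ) ^ 2 / (2 * Real.pi * stiff l b))) := by
  have triv : (q : ℝ) ^ 2 / (2 * Real.pi * stiff l b) = 0 → ∃ K : ℝ, ∀ x : ℤ × ℤ, x ≠ 0 →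
      ∃ c : ℝ, Tendsto (fun R : ℕ => corrQ q R b x) atTop (𝓝 c) ∧ 0 ≤ c ∧
      c ≤ K * ((max |x.1| |x.2| : ℤ) : ℝ) ^ (-((q : ℝ) ^ 2 / (2 * Real.pi * stiff l b))) := by
    intro h0
    refine ⟨1, fun x _ => ?_⟩
    obtain ⟨c, h1, h2, h3⟩ := corrQ_tendsto q hb.le x
    refine ⟨c, h1, h2, ?_⟩
    rw [h0, neg_zero, Real.rpow_zero, mul_one]
    exact h3 1 fun R hR => corrQ_le_one q R hR
  rcases Nat.eq_zero_or_pos q with hq | hq
  · exact triv (by simp [hq])
  rcases (UJ.stiff_nonneg' hb.le hl).eq_or_lt with hS | hS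
  · exact triv (by rw [← hS]; simp)
  obtain ⟨K, _, h⟩ := charge_bound hl hb.le hS le_rfl hq
  refine ⟨K, fun x hx => ?_⟩
  obtain ⟨c, h1, h2, h3⟩ := corrQ_tendsto q hb.le x
  exact ⟨c, h1, h2, h3 _ fun R hR => h R x hx hR⟩

end Vale.Agent.P159.H177
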