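import Vale.Agent.P159.H177.Lim
import Vale.Agent.P159.H177.Charge
import Vale.Agent.P159.H873.Mono

/-!
The exponents in terms of the helicity modulus.
-/

set_option linter.all false
set_option autoImplicit false

open MeasureTheory Filter Topology
open scoped BigOperators

namespace Vale.Agent.P159.H177

open Vale.Agent.P159 Vale.Agent.P159.UJ

/-- some block has a stiffness below any number above the helicity modulus -/
theorem exists_stiff_lt {b t : ℝ} (h : helicity b < t) : ∃ l : ℕ, 1 ≤ l ∧ stiff l b < t := by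
  obtain ⟨l, hl⟩ := exists_lt_of_ciInf_lt (f := fun l : ℕ => stiff (l + 1) b) h
  exact ⟨l + 1, Nat.succ_le_succ (Nat.zero_le l), hl⟩

theorem one_le_sup {x : ℤ × ℤ} (hx : x ≠ 0) : (1 : ℝ) ≤ ((max |x.1| |x.2| : ℤ) : ℝ) := by
  have h : (1 : ℤ) ≤ max |x.1| |x.2| := by
    by_contra hc
    have h1 := le_max_left |x.1| |x.2|
    have h2 := le_max_right |x.1| |x.2|
    have h3 := abs_nonneg x.1
    have h4 := abs_nonneg x.2
    have h5 : |x.1| = 0 := by omega
    have h6 : |x.2| = 0 := by omega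
    exact hx (Prod.ext (abs_eq_zero.1 h5) (abs_eq_zero.1 h6))
  exact_mod_cast h

/-- the correlations of charge `q` decay with every exponent below `q² / (2 π helicity)` -/
theorem charge_helicity {b : ℝ} (hb : 0 < b) (q : ℕ) {η : ℝ}
    (hη : η * (2 * Real.pi * helicity b) < (q : ℝ) ^ 2) :
    ∃ K : ℝ, ∀ x : ℤ × ℤ, x ≠ 0 → ∃ c : ℝ,
      Tendsto (fun R : ℕ => corrQ q R b x) atTop (𝓝 c) ∧ 0 ≤ c ∧
      c ≤ K * ((max |x.1| |x.2| : ℤ) : ℝ) ^ (-η) := by
  have hpi := Real.pi_pos
  obtain ⟨l, hl, hlt⟩ : ∃ l : ℕ, 1 ≤ l ∧ η * (2 * Real.pi * stiff l b) < (q : ℝ) ^ 2 := by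
    rcases le_or_gt η 0 with h0 | h0
    · rcases h0.lt_or_eq with h1 | h1
      · refine ⟨1, le_refl 1, ?_⟩
        have h2 := H873.stiff_pos (le_refl 1) hb
        have h3 : 0 < -η * (2 * Real.pi * stiff 1 b) := by
          have : 0 < -η := by linarith
          positivity
        have h4 : (0 : ℝ) ≤ (q : ℝ) ^ 2 := by positivity
        linarith
      · refine ⟨1, le_refl 1, ?_⟩
        rw [h1, zero_mul] at hη ⊢
        exact hη
    · have h1 : helicity b < (q : ℝ) ^ 2 / (η * (2 * Real.pi)) := by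
        rw [lt_div_iff₀ (by positivity)]
        linarith
      obtain ⟨l, hl, h2⟩ := exists_stiff_lt h1
      refine ⟨l, hl, ?_⟩
      rw [lt_div_iff₀ (by positivity)] at h2
      linarith
  obtain ⟨K, hK⟩ := charge_decay hb hl q
  refine ⟨max K 0, fun x hx => ?_⟩
  obtain ⟨c, h1, h2, h3⟩ := hK x hx
  refine ⟨c, h1, h2, h3.trans ?_⟩
  have hS := H873.stiff_pos hl hb
  have hle : η ≤ (q : ℝ) ^ 2 / (2 * Real.pi * stiff l b) := by
    rw [le_div_iff₀ (by positivity)]
    exact hlt.le
  exact mul_le_mul (le_max_left _ _)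
    (Real.rpow_le_rpow_of_exponent_le (one_le_sup hx) (neg_le_neg hle))
    (Real.rpow_nonneg (zero_le_one.trans (one_le_sup hx)) _) (le_max_right _ _)

/-- the correlation length grows at least with every exponent below
`1 / (2 - 1 / (2 π helicity))` below the critical point -/
theorem xi_helicity {ν : ℝ} (hν : ν < 1 / (2 - 1 / (2 * Real.pi * helicity bCrit))) :
    ∃ c δ : ℝ, 0 < c ∧ 0 < δ ∧ ∀ b : ℝ, 0 < b → bCrit - δ < b → b < bCrit →
      c * (bCrit - b) ^ (-ν) ≤ corrLength b := by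
  rcases le_or_gt bCrit 0 with hbc | hbc
  · exact ⟨1, 1, one_pos, one_pos, fun b h1 _ h3 => absurd (h1.trans h3) (not_lt.2 hbc)⟩
  have hpi := Real.pi_pos
  have hc := H873.hel_crit hbc
  have hY : 0 < helicity bCrit := lt_of_lt_of_le (by positivity) hc
  have hden : 1 / (2 * Real.pi * helicity bCrit) ≤ 1 / 4 := by
    apply one_div_le_one_div_of_le (by norm_num)
    rw [div_le_iff₀ hpi] at hc
    linarith
  have ht := tendsto_stiff hbc
  have ht2 : Tendsto (fun l : ℕ => 1 / (2 - 1 / (2 * Real.pi * stiff l bCrit))) atTop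
      (𝓝 (1 / (2 - 1 / (2 * Real.pi * helicity bCrit)))) := by
    refine tendsto_const_nhds.div (tendsto_const_nhds.sub (tendsto_const_nhds.div
      (tendsto_const_nhds.mul ht) ?_)) ?_
    · positivity
    · linarith
  obtain ⟨l, hl, hl1⟩ := ((ht2.eventually_const_lt hν).and (eventually_ge_atTop 1)).exists
  exact xi_stiff hl1 hl

end Vale.Agent.P159.H177
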