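import Vale.Agent.P159.Bdl.B9

/-!
The stiffness of a wired block of side `L` compared with the stiffness of a smaller block of any
side `s ≤ L`, and the thermodynamic limit of the stiffness.
-/

open MeasureTheory Filter Topology
open scoped BigOperators

namespace Vale.Agent.P159.H177

open UJ

/-- the bonds of the small block as bonds of the big block -/
def emb {s L : ℕ} (h : s ≤ L) (e : BI s) : BI L :=
  ((Fin.castLE h e.1.1, Fin.castLE h e.1.2), e.2)

theorem emb_inj {s L : ℕ} (h : s ≤ L) : Function.Injective (emb h) := by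
  rintro ⟨⟨i, j⟩, t⟩ ⟨⟨i', j'⟩, t'⟩ he
  simp only [emb, Prod.mk.injEq, Fin.castLE_inj] at he
  obtain ⟨⟨rfl, rfl⟩, rfl⟩ := he
  rfl

theorem bu_emb {s L : ℕ} (h : s ≤ L) (e : BI s) : bu (emb h e) = bu e := rfl

theorem bv_emb {s L : ℕ} (h : s ≤ L) (e : BI s) : bv (emb h e) = bv e := rfl

theorem hh_emb {s L : ℕ} (h : s ≤ L) (e : BI s) : hh (emb h e) = hh e := rfl

/-- the bonds of the big block in unit squares off the small block -/
def rest (s L : ℕ) : Finset (BI L) :=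
  Finset.univ.filter fun e => ¬ ((e.1.1 : ℕ) < s ∧ (e.1.2 : ℕ) < s)

theorem sum_split {s L : ℕ} (h : s ≤ L) (F : BI L → ℝ) :
    ∑ e, F e = ∑ e : BI s, F (emb h e) + ∑ e ∈ rest s L, F e := by
  classical
  rw [← Finset.sum_filter_add_sum_filter_not Finset.univ
    (fun e : BI L => (e.1.1 : ℕ) < s ∧ (e.1.2 : ℕ) < s) F]
  congr 1
  symm
  refine Finset.sum_bij' (fun e _ => emb h e)
    (fun e he => ((⟨e.1.1, ((Finset.mem_filter.1 he).2).1⟩,
      ⟨e.1.2, ((Finset.mem_filter.1 he).2).2⟩), e.2)) ?_ ?_ ?_ ?_ ?_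
  · intro e _
    rw [Finset.mem_filter]
    exact ⟨Finset.mem_univ _, e.1.1.2, e.1.2.2⟩
  · intro e _
    exact Finset.mem_univ _
  · intro e _
    rfl
  · intro e _
    rfl
  · intro e _
    rfl

theorem rest_notMem {s L : ℕ} {e : BI L} (he : e ∈ rest s L) :
    bu e ∉ inB s 0 ∧ bv e ∉ inB s 0 := by
  rw [rest, Finset.mem_filter] at he
  have h := he.2
  obtain ⟨⟨i, j⟩, ⟨t1, t2⟩⟩ := e
  rw [var_mem_inB, var_mem_inB]
  cases t1 <;> cases t2 <;>
    simp only [bu, bv, Bool.and_self, Bool.and_true, Bool.and_false, Bool.not_true, Bool.not_false,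
      Bool.false_eq_true, ↓reduceIte, add_zero, Prod.mk_add_mk, Prod.fst_zero, Prod.snd_zero,
      sub_zero] at h ⊢ <;> omega

theorem EB_dec (b : ℝ) {s L : ℕ} (h : s ≤ L) (θ : Ginf) :
    EB b L 0 θ = EB b s 0 θ + ∑ e ∈ rest s L, b / 2 * cosT (θ (0 + bu e) - θ (0 + bv e)) := by
  unfold EB
  rw [sum_split h]
  rfl

theorem SB_dec (b : ℝ) {s L : ℕ} (h : s ≤ L) (θ : Ginf) :
    SB b L 0 hh θ = SB b s 0 hh θ +
      ∑ e ∈ rest s L, b / 2 * hh e * sinT (θ (0 + bu e) - θ (0 + bv e)) := by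
  unfold SB
  rw [sum_split h]
  rfl

theorem BB_dec (b : ℝ) {s L : ℕ} (h : s ≤ L) (θ : Ginf) :
    BB b L 0 hh θ = BB b s 0 hh θ +
      ∑ e ∈ rest s L, b / 2 * (hh e * hh e) * cosT (θ (0 + bu e) - θ (0 + bv e)) := by
  unfold BB
  rw [sum_split h]
  rfl

theorem inB_mono {s L : ℕ} (h : s ≤ L) : inB s 0 ⊆ inB L 0 := by
  intro z hz
  rw [var_mem_inB] at hz ⊢
  have h' : (s : ℤ) ≤ L := by exact_mod_cast h
  omega

theorem rest_inv {s L : ℕ} (φ : BI L → ℝ) (f : T → ℝ) (x y : Ginf) :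
    ∑ e ∈ rest s L, φ e * f ((x + PB s 0 y) (0 + bu e) - (x + PB s 0 y) (0 + bv e)) =
      ∑ e ∈ rest s L, φ e * f (x (0 + bu e) - x (0 + bv e)) := by
  refine Finset.sum_congr rfl fun e he => ?_
  obtain ⟨h1, h2⟩ := rest_notMem he
  rw [zero_add, zero_add, var_PB_notMem h1, var_PB_notMem h2]

/-- the tower property for the small block -/
theorem tower (b : ℝ) {s L : ℕ} (h : s ≤ L) {f g : Ginf → ℝ} (hf : Continuous f)
    (hg : Continuous g) (hinv : ∀ x y, g (x + PB s 0 y) = g x) :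
    Ev b L 0 (fun x => g x * CE muInf (PB s 0) (EB b s 0) f x) =
      Ev b L 0 (fun x => g x * f x) := by
  unfold Ev
  congr 1
  have hwc : Continuous fun x => Real.exp (EB b L 0 x - EB b s 0 x) :=
    Real.continuous_exp.comp ((EB_cont _ _ _).sub (EB_cont _ _ _))
  have hwinv : ∀ x y, Real.exp (EB b L 0 (x + PB s 0 y) - EB b s 0 (x + PB s 0 y))
      = Real.exp (EB b L 0 x - EB b s 0 x) := by
    intro x y
    rw [EB_dec b h, EB_dec b h, add_sub_cancel_left, add_sub_cancel_left,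
      rest_inv (fun _ => b / 2) cosT x y]
  have h1 := CE_int muInf (ν := nu L 0) (P := PB s 0) (var_PB_cont _ _)
    (nu_inv (inB_mono h) 0) (E := EB b s 0) (f := f) (g := g)
    (w := fun x => Real.exp (EB b L 0 x - EB b s 0 x)) (EB_cont _ _ _) hf hg hwc
    hinv hwinv
  have h2 : ∀ x, Real.exp (EB b L 0 x - EB b s 0 x) * Real.exp (EB b s 0 x)
      = Real.exp (EB b L 0 x) := by
    intro x
    rw [← Real.exp_add]
    congr 1
    ring
  simp only [h2] at h1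
  exact h1

/-- the stiffness as a variance deficit in the block -/
theorem big (b : ℝ) {L : ℕ} (hL : 1 ≤ L) :
    (L : ℝ) ^ 2 * stiff L b =
      Ev b L 0 (BB b L 0 hh) - Ev b L 0 (fun x => SB b L 0 hh x ^ 2) := by
  have ht : ∀ e : BI L, (((0 : BI L → ℝ) e : ℝ) : T)
      = (0 : Ginf) ((0 : ℤ × ℤ) + bu e) - (0 : Ginf) ((0 : ℤ × ℤ) + bv e) := by
    intro e
    simp
  have h1 := qc_eq (b := b) (s := L) (c := 0) (θ := 0) (t := 0) (h := hh) ht
  have h2 := jc_eq (b := b) (s := L) (c := 0) (θ := 0) (t := 0) (h := hh) ht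
  have hQ : QQ muInf (fun _ => b / 2) (chi0 L) 0 hh hh = (L : ℝ) ^ 2 * stiff L b := by
    rw [QQ_zero, Q_h _ _ hL]
  rw [jm_zero] at h2
  rw [hQ, qc, h2] at h1
  have h3 : Continuous fun x => SB b L 0 hh x ^ 2 := (SB_cont b L 0 hh).pow 2
  rw [var_Ev_eq b L (BB_cont b L 0 hh), var_Ev_eq b L h3, ← h1]
  ring

theorem cosT_le_one (x : T) : cosT x ≤ 1 := by
  have h : Real.Angle.cos x ^ 2 + Real.Angle.sin x ^ 2 = 1 := Real.Angle.cos_sq_add_sin_sq x
  show Real.Angle.cos x ≤ 1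
  nlinarith only [h, sq_nonneg (Real.Angle.sin x), sq_nonneg (Real.Angle.cos x - 1)]

theorem ev3 (b : ℝ) (L : ℕ) (f g h : Ginf → ℝ) (hf : Continuous f) (hg : Continuous g)
    (hh' : Continuous h) : Ev b L 0 (fun x => (f x + 2 * g x) + h x) =
      Ev b L 0 f + 2 * Ev b L 0 g + Ev b L 0 h := by
  have h1 := var_Ev_add b L (f := fun x => f x + 2 * g x) (g := h)
    (hf.add (continuous_const.mul hg)) hh'
  have h2 := var_Ev_add b L (f := f) (g := fun x => 2 * g x) hf (continuous_const.mul hg)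
  have h3 := var_Ev_smul b L 2 g
  rw [h1, h2, h3]

theorem ev3' (b : ℝ) (L : ℕ) (f g h : Ginf → ℝ) (hf : Continuous f) (hg : Continuous g)
    (hh' : Continuous h) : Ev b L 0 (fun x => (f x - g x) + h x) =
      Ev b L 0 f - Ev b L 0 g + Ev b L 0 h := by
  have h1 := var_Ev_add b L (f := fun x => f x - g x) (g := h) (hf.sub hg) hh'
  have h2 := var_Ev_sub b L (f := f) (g := g) hf hg
  rw [h1, h2]

/-- comparison of the stiffness of a block with that of a smaller block of any side -/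
theorem block_le {b : ℝ} (hb : 0 ≤ b) {s L : ℕ} (hs : 1 ≤ s) (h : s ≤ L) :
    (L : ℝ) ^ 2 * stiff L b ≤ (s : ℝ) ^ 2 * stiff s b + b * ((L : ℝ) ^ 2 - (s : ℝ) ^ 2) := by
  set S1 : Ginf → ℝ := SB b s 0 hh with hS1
  set B1 : Ginf → ℝ := BB b s 0 hh with hB1
  set S2 : Ginf → ℝ := fun θ =>
    ∑ e ∈ rest s L, b / 2 * hh e * sinT (θ (0 + bu e) - θ (0 + bv e)) with hS2
  set B2 : Ginf → ℝ := fun θ =>
    ∑ e ∈ rest s L, b / 2 * (hh e * hh e) * cosT (θ (0 + bu e) - θ (0 + bv e)) with hB2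
  set j : Ginf → ℝ := jc b s 0 hh with hj
  have cS1 : Continuous S1 := SB_cont b s 0 hh
  have cB1 : Continuous B1 := BB_cont b s 0 hh
  have cS2 : Continuous S2 := continuous_finsetSum _ fun e _ =>
    continuous_const.mul (l1_bond_cont cont_sin (0 + bu e) (0 + bv e))
  have cB2 : Continuous B2 := continuous_finsetSum _ fun e _ =>
    continuous_const.mul (l1_bond_cont cont_cos (0 + bu e) (0 + bv e))
  have cj : Continuous j := jc_cont b s 0 hh
  -- the remaining diamagnetic term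
  have hrest : ∑ e ∈ rest s L, b / 2 * (hh e * hh e) = b * ((L : ℝ) ^ 2 - (s : ℝ) ^ 2) := by
    have h1 := sum_hh_sq b L
    rw [sum_split h] at h1
    have h2 := sum_hh_sq b s
    simp only [hh_emb] at h1
    rw [h2] at h1
    simp only [pow_two] at h1 ⊢
    linarith only [h1]
  have hB2le : ∀ θ, B2 θ ≤ b * ((L : ℝ) ^ 2 - (s : ℝ) ^ 2) := by
    intro θ
    rw [← hrest]
    refine Finset.sum_le_sum fun e _ => ?_
    have h1 : 0 ≤ b / 2 * (hh e * hh e) := by
      have := mul_self_nonneg (hh e)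
      positivity
    exact mul_le_of_le_one_right h1 (cosT_le_one _)
  -- the tower property
  have t1 : Ev b L 0 (fun x => S2 x * S1 x) = Ev b L 0 (fun x => S2 x * j x) :=
    (tower b h cS1 cS2 fun x y => rest_inv (fun e => b / 2 * hh e) sinT x y).symm
  have one : ∀ f : Ginf → ℝ, Continuous f →
      Ev b L 0 (CE muInf (PB s 0) (EB b s 0) f) = Ev b L 0 f := by
    intro f hf
    have := tower b h (f := f) (g := fun _ => 1) hf continuous_const fun _ _ => rfl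
    simpa only [one_mul] using this
  have t2 : Ev b L 0 (qc b s 0 hh) =
      Ev b L 0 B1 - Ev b L 0 (fun x => S1 x ^ 2) + Ev b L 0 (fun x => j x ^ 2) := by
    have e1 : qc b s 0 hh = fun x => (CE muInf (PB s 0) (EB b s 0) B1 x -
        CE muInf (PB s 0) (EB b s 0) (fun z => S1 z ^ 2) x) + j x ^ 2 := rfl
    have c1 : Continuous (CE muInf (PB s 0) (EB b s 0) B1) :=
      CE_cont muInf (var_PB_cont _ _) (EB_cont _ _ _) cB1
    have c2 : Continuous (CE muInf (PB s 0) (EB b s 0) (fun z => S1 z ^ 2)) :=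
      CE_cont muInf (var_PB_cont _ _) (EB_cont _ _ _) (cS1.pow 2)
    have e2 := ev3' b L _ _ (fun x => j x ^ 2) c1 c2 (cj.pow 2)
    rw [e1, e2, one _ cB1, one (fun z => S1 z ^ 2) (cS1.pow 2)]
  have t3 : Ev b L 0 (qc b s 0 hh) ≤ (s : ℝ) ^ 2 * stiff s b := by
    have := Ev_mono (b := b) (L := L) (v := 0) (qc_cont b s 0 hh)
      (continuous_const (y := (s : ℝ) ^ 2 * stiff s b)) fun x => (qc_le hb hs 0 x).1
    rwa [var_Ev_const] at this
  have t4 : Ev b L 0 B2 ≤ b * ((L : ℝ) ^ 2 - (s : ℝ) ^ 2) := by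
    have := Ev_mono (b := b) (L := L) (v := 0) cB2
      (continuous_const (y := b * ((L : ℝ) ^ 2 - (s : ℝ) ^ 2))) hB2le
    rwa [var_Ev_const] at this
  -- expansion
  have e2 : Ev b L 0 (fun x => SB b L 0 hh x ^ 2) =
      Ev b L 0 (fun x => S1 x ^ 2) + 2 * Ev b L 0 (fun x => S2 x * S1 x) +
        Ev b L 0 (fun x => S2 x ^ 2) := by
    have h1 : (fun x => SB b L 0 hh x ^ 2) =
        fun x => (S1 x ^ 2 + 2 * (S2 x * S1 x)) + S2 x ^ 2 := by
      funext x
      rw [SB_dec b h]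
      ring
    rw [h1]
    exact ev3 b L (fun x => S1 x ^ 2) (fun x => S2 x * S1 x) (fun x => S2 x ^ 2) (cS1.pow 2)
      (cS2.mul cS1) (cS2.pow 2)
  have e3 : 0 ≤ Ev b L 0 (fun x => j x ^ 2) + 2 * Ev b L 0 (fun x => S2 x * j x) +
        Ev b L 0 (fun x => S2 x ^ 2) := by
    have h1 : 0 ≤ Ev b L 0 (fun x => (j x + S2 x) ^ 2) := Ev_nonneg fun _ => sq_nonneg _
    have h2 : (fun x => (j x + S2 x) ^ 2) =
        fun x => (j x ^ 2 + 2 * (S2 x * j x)) + S2 x ^ 2 := by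
      funext x
      ring
    rw [h2] at h1
    exact h1.trans_eq (ev3 b L (fun x => j x ^ 2) (fun x => S2 x * j x) (fun x => S2 x ^ 2)
      (cj.pow 2) (cS2.mul cj) (cS2.pow 2))
  have e4 : Ev b L 0 (BB b L 0 hh) = Ev b L 0 B1 + Ev b L 0 B2 := by
    have h1 : BB b L 0 hh = fun x => B1 x + B2 x := funext fun x => BB_dec b h x
    rw [h1, var_Ev_add b L cB1 cB2]
  rw [big b (hs.trans h), e4, e2, t1]
  linarith only [t2, t3, t4, e3]

/-- a rate for the thermodynamic limit -/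
theorem stiff_le_rate {b : ℝ} (hb : 0 ≤ b) {l n : ℕ} (hl : 1 ≤ l) (hn : l ≤ n) :
    stiff n b ≤ stiff l b + 2 * b * l / n := by
  set q := n / l with hq
  have hq1 : 1 ≤ q := Nat.div_pos hn hl
  have hs1 : l * q ≤ n := Nat.mul_div_le n l
  have hs2 : n < l * q + l := by
    have := Nat.lt_mul_div_succ n hl
    rw [Nat.mul_add, Nat.mul_one] at this
    exact this
  have h1 := block_le hb (Nat.mul_pos hl hq1) hs1
  have h2 := stiff_mono hb hl hq1
  have h3 := UJ.stiff_nonneg' hb (Nat.mul_pos hl hq1)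
  have hn0 : (0 : ℝ) < n := by
    have : 0 < n := by omega
    exact_mod_cast this
  have a1 : ((l * q : ℕ) : ℝ) ≤ n := by exact_mod_cast hs1
  have a2 : (n : ℝ) ≤ ((l * q : ℕ) : ℝ) + l := by exact_mod_cast hs2.le
  have a0 : (0 : ℝ) ≤ ((l * q : ℕ) : ℝ) := Nat.cast_nonneg _
  have a3 : ((l * q : ℕ) : ℝ) ^ 2 ≤ (n : ℝ) ^ 2 := pow_le_pow_left₀ a0 a1 2
  have a4 : (n : ℝ) ^ 2 - ((l * q : ℕ) : ℝ) ^ 2 ≤ 2 * l * n := by
    have e : (n : ℝ) ^ 2 - ((l * q : ℕ) : ℝ) ^ 2 =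
        ((n : ℝ) - ((l * q : ℕ) : ℝ)) * ((n : ℝ) + ((l * q : ℕ) : ℝ)) := by ring
    have b1 : (n : ℝ) - ((l * q : ℕ) : ℝ) ≤ l := by linarith only [a2]
    have b2 : (n : ℝ) + ((l * q : ℕ) : ℝ) ≤ 2 * n := by linarith only [a1]
    have b3 : (0 : ℝ) ≤ l := Nat.cast_nonneg _
    rw [e]
    calc ((n : ℝ) - ((l * q : ℕ) : ℝ)) * ((n : ℝ) + ((l * q : ℕ) : ℝ))
        ≤ l * (2 * n) := mul_le_mul b1 b2 (by positivity) b3
      _ = 2 * l * n := by ring
  have h4 : (n : ℝ) ^ 2 * stiff n b ≤ (n : ℝ) ^ 2 * stiff l b + b * (2 * l * n) := by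
    have c1 : ((l * q : ℕ) : ℝ) ^ 2 * stiff (l * q) b ≤ (n : ℝ) ^ 2 * stiff l b :=
      mul_le_mul a3 h2 h3 (by positivity)
    have c2 := mul_le_mul_of_nonneg_left a4 hb
    linarith only [h1, c1, c2]
  have h5 : (n : ℝ) ^ 2 * (stiff l b + 2 * b * l / n) =
      (n : ℝ) ^ 2 * stiff l b + b * (2 * l * n) := by
    field_simp
  rw [← h5] at h4
  exact le_of_mul_le_mul_left h4 (by positivity)

theorem helicity_le {b : ℝ} (hb : 0 ≤ b) {l : ℕ} (hl : 1 ≤ l) : helicity b ≤ stiff l b := by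
  obtain ⟨m, rfl⟩ : ∃ m, l = m + 1 := ⟨l - 1, by omega⟩
  refine ciInf_le ⟨0, ?_⟩ m
  rintro _ ⟨k, rfl⟩
  exact UJ.stiff_nonneg' hb (Nat.succ_le_succ (Nat.zero_le k))

/-- the thermodynamic limit of the stiffness exists and is the helicity modulus -/
theorem tendsto_stiff {b : ℝ} (hb : 0 < b) :
    Tendsto (fun l : ℕ => stiff l b) atTop (𝓝 (helicity b)) := by
  refine tendsto_order.2 ⟨fun a ha => ?_, fun a ha => ?_⟩
  · filter_upwards [eventually_ge_atTop 1] with l hl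
    exact ha.trans_le (helicity_le hb.le hl)
  · obtain ⟨m, hm⟩ := exists_lt_of_ciInf_lt ha
    have hlim : Tendsto (fun n : ℕ => stiff (m + 1) b + 2 * b * ((m + 1 : ℕ) : ℝ) / (n : ℝ)) atTop
        (𝓝 (stiff (m + 1) b + 0)) :=
      tendsto_const_nhds.add (tendsto_const_nhds.div_atTop tendsto_natCast_atTop_atTop)
    rw [add_zero] at hlim
    filter_upwards [hlim.eventually_lt_const hm, eventually_ge_atTop (m + 1)] with n h1 h2
    exact (stiff_le_rate hb.le (Nat.succ_le_succ (Nat.zero_le m)) h2).trans_lt h1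

end Vale.Agent.P159.H177
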